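import Vale.Agent.P082.Diagonal

/-!
In degree two, a bounded Hochschild cocycle of a unital C⋆-algebra is determined by its values on
the diagonal of the self-adjoint part.
-/

noncomputable section

namespace Vale.Agent.Results.P082.DiagonalCocycle

universe u

theorem result :
    ∀ (A : Type u) [CStarAlgebra A] (φ : A →L[ℂ] A →L[ℂ] A),
      (∀ a b c : A, a * φ b c - φ (a * b) c + φ a (b * c) - φ a b * c = 0) →
      ((∃ g : A →L[ℂ] A, ∀ a b, φ a b = a * g b - g (a * b) + g a * b) ↔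
        ∃ g : A →L[ℂ] A, ∀ a, IsSelfAdjoint a → φ a a = a * g a - g (a * a) + g a * a) ∧
      ((∀ a, IsSelfAdjoint a → φ a a = 0) → φ = 0) := by
  intro A _ φ hφ
  exact ⟨⟨fun ⟨g, hg⟩ => ⟨g, fun a _ => hg a a⟩,
      fun ⟨g, hg⟩ => ⟨g, fun a b => Vale.Agent.P082.eq_coboundary hφ g hg a b⟩⟩,
    fun h => Vale.Agent.P082.eq_zero_of_antisymm hφ (Vale.Agent.P082.antisymm_of_diag h)⟩

end Vale.Agent.Results.P082.DiagonalCocycle
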